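import Vale.Agent.P272.Cor

open scoped Manifold ContDiff

namespace Vale.Agent.Results.P272.B_entire

open Vale.Agent.P272

theorem result (n : ℕ) (hn : 0 < n) (X : Type) [TopologicalSpace X] [T2Space X] [CompactSpace X]
    [Nonempty X] [ChartedSpace (E n) X] [IsManifold 𝓘(ℂ, E n) ω X] (g : HermMetric n X)
    (h : ∀ ε : ℝ, 0 < ε → ∃ m : VolForm n X, CurvLe m ε g) :
    ∃ f : ℂ → X, MDifferentiable 𝓘(ℂ, ℂ) 𝓘(ℂ, E n) f ∧ ∃ z w, f z ≠ f w :=
  entire hn g h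

end Vale.Agent.Results.P272.B_entire
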