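import Vale.Agent.P272.Main

open scoped Manifold ContDiff

namespace Vale.Agent.Results.P272.C_vol

open Vale.Agent.P272

theorem result (n : ℕ) (hn : 0 < n) (X : Type) [TopologicalSpace X] [T2Space X] [CompactSpace X]
    [ChartedSpace (E n) X] [IsManifold 𝓘(ℂ, E n) ω X]
    (hy : ∀ f : ℂ → X, MDifferentiable 𝓘(ℂ, ℂ) 𝓘(ℂ, E n) f → ∀ z w, f z = f w)
    (g₀ : HermMetric n X) : ∃ c : ℝ, 0 < c ∧ ∀ (g : HermMetric n X) (m : VolForm n X),
      CurvLe m 1 g → VolGe m 1 g → VolGe m c g₀ :=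
  schwarz_vol hn hy g₀

end Vale.Agent.Results.P272.C_vol
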