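import Vale.Agent.P272.F.Z.Atl
import Vale.Agent.P272.F.Z.DD
import Vale.Agent.P272.F.A.Fin

/-! P272: a compact connected hyperbolic Kaehler manifold has ample canonical bundle. -/

open scoped Manifold ContDiff

namespace Vale.Agent.Results.P272.E_full

open Vale.Agent.P272

theorem result (n : ℕ) (hn : 1 ≤ n) (X : Type) [TopologicalSpace X] [T2Space X] [CompactSpace X]
    [ConnectedSpace X] [ChartedSpace (E n) X] [IsManifold 𝓘(ℂ, E n) ω X]
    (g : HermMetric n X) (hg : g.IsClosed)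
    (hy : ∀ f : ℂ → X, MDifferentiable 𝓘(ℂ, ℂ) 𝓘(ℂ, E n) f → ∀ z w, f z = f w) :
    CanAmple n X :=
  z_full g hg.isKahler hy fun _ hA ρ hρ v => ample hn hA ρ hρ v

end Vale.Agent.Results.P272.E_full
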